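import Vale.Agent.P022D.NR.Tan

/-!
P022D, block TAN: surjections from power series rings, compatible with a fixed surjection onto a
quotient.
-/

open IsLocalRing

noncomputable section

namespace Vale.Agent.P022D.NR

/-- evaluation of power series in a complete ring -/
theorem exists_ev {ι O R : Type*} [Finite ι] [CommRing O] [CommRing R] (J : Ideal R)
    [IsAdicComplete J R] (σ : O →+* R) (x : ι → R) (hx : ∀ i, x i ∈ J) :
    ∃ φ : MvPowerSeries ι O →+* R, (∀ o, φ (MvPowerSeries.C o) = σ o) ∧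
      ∀ i, φ (MvPowerSeries.X i) = x i := by
  have hI : ∀ n, MvPolynomial.idealOfVars ι O ^ n ≤
      (J ^ n).comap (MvPolynomial.eval₂Hom σ x) := by
    intro n
    rw [← Ideal.map_le_iff_le_comap, Ideal.map_pow]
    apply Ideal.pow_right_mono
    rw [MvPolynomial.idealOfVars, Ideal.map_span, Ideal.span_le]
    rintro _ ⟨_, ⟨i, rfl⟩, rfl⟩
    simpa using hx i
  let f : (n : ℕ) → MvPowerSeries ι O →+* R ⧸ J ^ n := fun n =>
    (Ideal.quotientMap (J ^ n) (MvPolynomial.eval₂Hom σ x) (hI n)).comp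
      (MvPowerSeries.truncTotalAlgHom ι O n).toRingHom
  have hf : ∀ {m n : ℕ} (hle : m ≤ n), (Ideal.Quotient.factorPow J hle).comp (f n) = f m := by
    intro m n hle
    ext p
    have h1 := hI m (MvPowerSeries.truncTotal_sub_truncTotal_mem_pow_idealOfVars hle le_rfl p)
    rw [Ideal.mem_comap, map_sub, ← Ideal.Quotient.mk_eq_mk_iff_sub_mem] at h1
    exact h1
  have key : ∀ p : MvPolynomial ι O, IsAdicComplete.liftRingHom J f hf (p : MvPowerSeries ι O) =
      MvPolynomial.eval₂Hom σ x p := by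
    intro p
    rw [← sub_eq_zero]
    apply IsHausdorff.haus (I := J) inferInstance
    intro n
    rw [SModEq.zero, smul_eq_mul, Ideal.mul_top, ← Ideal.Quotient.eq_zero_iff_mem, map_sub,
      IsAdicComplete.mk_liftRingHom, sub_eq_zero]
    have h2 := (MvPowerSeries.truncTotalAlgHom ι O n).commutes p
    change Ideal.quotientMap (J ^ n) (MvPolynomial.eval₂Hom σ x) (hI n)
      (MvPowerSeries.truncTotalAlgHom ι O n (p : MvPowerSeries ι O)) = _
    erw [h2]
    rfl
  refine ⟨IsAdicComplete.liftRingHom J f hf, fun o => ?_, fun i => ?_⟩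
  · rw [← MvPolynomial.coe_C, key]; simp
  · rw [← MvPolynomial.coe_X, key]; simp

/-- the ideal of the variables -/
abbrev IX (ι O : Type*) [CommRing O] : Ideal (MvPowerSeries ι O) :=
  Ideal.span (Set.range MvPowerSeries.X)

theorem map_IX {ι O R : Type*} [CommRing O] [CommRing R] (φ : MvPowerSeries ι O →+* R) :
    (IX ι O).map φ = Ideal.span (Set.range fun i => φ (MvPowerSeries.X i)) := by
  rw [IX, Ideal.map_span, ← Set.range_comp]; rfl

theorem mem_IX {σ R : Type*} [Finite σ] [CommRing R] (p : MvPowerSeries σ R)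
    (hp : MvPowerSeries.constantCoeff p = 0) : p ∈ IX σ R := by
  have h1 : Ideal.map (MvPowerSeries.toAdicCompletionAlgEquiv σ R).toRingEquiv
      (Ideal.span (Set.range MvPowerSeries.X)) =
      (MvPolynomial.idealOfVars σ R).map (algebraMap _ _) := by
    simp_rw [Ideal.map_span, ← Set.range_comp]
    congr 2; ext1
    simp [AdicCompletion.algebraMap_apply, ← MvPolynomial.coe_X,
      MvPowerSeries.toAdicCompletion_coe]
  replace h1 := h1.trans
    (AdicCompletion.ker_evalOneₐ_eq_map _ (MvPolynomial.idealOfVars_fg σ R)).symm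
  have h2 : MvPowerSeries.toAdicCompletionAlgEquiv σ R p ∈
      RingHom.ker (AdicCompletion.evalOneₐ (MvPolynomial.idealOfVars σ R)).toRingHom := by
    rw [RingHom.mem_ker]
    change AdicCompletion.evalOneₐ (MvPolynomial.idealOfVars σ R)
      (MvPowerSeries.toAdicCompletion σ R p) = 0
    rw [MvPowerSeries.toAdicCompletion, AdicCompletion.evalOneₐ_liftAlgHom (hf := fun h ↦
      AlgHom.ext fun _ ↦ by
      simpa [Ideal.Quotient.mk_eq_mk_iff_sub_mem] using
        MvPowerSeries.truncTotal_sub_truncTotal_mem_pow_idealOfVars h (le_refl _) _)]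
    have h3 : MvPowerSeries.truncTotalAlgHom σ R 1 p = 0 := by
      rw [MvPowerSeries.truncTotalAlgHom_apply, Ideal.Quotient.eq_zero_iff_mem]
      refine (MvPolynomial.mem_pow_idealOfVars_iff' ..).mpr fun x hx ↦ ?_
      have hx0 : x = 0 := by
        rw [← Finsupp.degree_eq_zero_iff]
        omega
      rw [MvPowerSeries.coeff_truncTotal _ hx, hx0]
      simpa using hp
    rw [h3, map_zero]
  rw [← h1] at h2
  have h3 := Ideal.mem_map_of_equiv (MvPowerSeries.toAdicCompletionAlgEquiv σ R).toRingEquiv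
    (I := (Ideal.span (Set.range MvPowerSeries.X))) (MvPowerSeries.toAdicCompletionAlgEquiv σ R p)
  obtain ⟨q, hq, hqp⟩ := h3.mp h2
  have : q = p := (MvPowerSeries.toAdicCompletionAlgEquiv σ R).injective hqp
  rwa [← this]

/-- every power series is a polynomial modulo a power of the ideal of the variables -/
theorem exists_poly {ι O : Type*} [Finite ι] [CommRing O] (n : ℕ) (s : MvPowerSeries ι O) :
    ∃ q : MvPolynomial ι O, s - q ∈ IX ι O ^ n := by
  have _ := Fintype.ofFinite ι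
  induction n generalizing s with
  | zero => exact ⟨0, by simp⟩
  | succ n ih =>
    have h1 := mem_IX
      (s - MvPowerSeries.C (MvPowerSeries.constantCoeff s)) (by simp)
    obtain ⟨a, ha⟩ := Ideal.mem_span_range_iff_exists_fun.1 h1
    choose q hq using fun i => ih (a i)
    refine ⟨MvPolynomial.C (MvPowerSeries.constantCoeff s) + ∑ i, q i * MvPolynomial.X i, ?_⟩
    have h2 : s - ((MvPolynomial.C (MvPowerSeries.constantCoeff s) +
        ∑ i, q i * MvPolynomial.X i : MvPolynomial ι O) : MvPowerSeries ι O) =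
        ∑ i, (a i - (q i : MvPowerSeries ι O)) * MvPowerSeries.X i := by
      have h3 : (((∑ i, q i * MvPolynomial.X i : MvPolynomial ι O)) :
          MvPowerSeries ι O) = ∑ i, (q i : MvPowerSeries ι O) * MvPowerSeries.X i := by
        rw [← MvPolynomial.coeToMvPowerSeries.ringHom_apply, map_sum]
        refine Finset.sum_congr rfl fun i _ => ?_
        rw [map_mul]
        simp
      rw [MvPolynomial.coe_add, MvPolynomial.coe_C, h3, ← sub_sub, ← ha,
        ← Finset.sum_sub_distrib]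
      refine Finset.sum_congr rfl fun i _ => ?_
      rw [sub_mul]
    rw [h2, pow_succ]
    exact Ideal.sum_mem _ fun i _ => Ideal.mul_mem_mul (hq i) (Ideal.subset_span ⟨i, rfl⟩)

/-- two evaluations agree -/
theorem ev_ext {ι O R : Type*} [Finite ι] [CommRing O] [CommRing R] (J : Ideal R)
    [IsHausdorff J R] {φ ψ : MvPowerSeries ι O →+* R}
    (hC : ∀ o, φ (MvPowerSeries.C o) = ψ (MvPowerSeries.C o))
    (hX : ∀ i, φ (MvPowerSeries.X i) = ψ (MvPowerSeries.X i))
    (hJ : ∀ i, φ (MvPowerSeries.X i) ∈ J) : φ = ψ := by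
  have hp : ∀ q : MvPolynomial ι O, φ q = ψ q := by
    intro q
    induction q using MvPolynomial.induction_on with
    | C a => rw [MvPolynomial.coe_C, hC]
    | add p q hp hq => rw [MvPolynomial.coe_add, map_add, map_add, hp, hq]
    | mul_X p i hp => rw [MvPolynomial.coe_mul, MvPolynomial.coe_X, map_mul, map_mul, hp, hX]
  have hm : ∀ χ : MvPowerSeries ι O →+* R, (∀ i, χ (MvPowerSeries.X i) ∈ J) → ∀ n,
      ∀ p ∈ IX ι O ^ n, χ p ∈ J ^ n := by
    intro χ hχ n p hp
    have h1 : (IX ι O).map χ ≤ J := by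
      rw [map_IX, Ideal.span_le]
      rintro _ ⟨i, rfl⟩; exact hχ i
    have := Ideal.mem_map_of_mem χ hp
    rw [Ideal.map_pow] at this
    exact Ideal.pow_right_mono h1 n this
  refine RingHom.ext fun p => ?_
  rw [← sub_eq_zero]
  apply IsHausdorff.haus (I := J) inferInstance
  intro n
  rw [SModEq.zero, smul_eq_mul, Ideal.mul_top]
  obtain ⟨q, hq⟩ := exists_poly n p
  have := (J ^ n).sub_mem (hm φ hJ n _ hq) (hm ψ (fun i => hX i ▸ hJ i) n _ hq)
  rw [map_sub, map_sub, hp] at this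
  convert this using 1
  ring

theorem haus_of_le {R : Type*} [CommRing R] [IsLocalRing R] [IsNoetherianRing R] {I : Ideal R}
    (h : I ≠ ⊤) : IsHausdorff I R := by
  refine ⟨fun x hx => ?_⟩
  have h1 := Ideal.iInf_pow_eq_bot_of_isLocalRing I h
  rw [← Ideal.mem_bot, ← h1, Ideal.mem_iInf]
  intro n
  have := hx n
  rwa [SModEq.zero, smul_eq_mul, Ideal.mul_top] at this

/-- surjectivity from generators of the cotangent space -/
theorem ev_surj {ι O R : Type*} [Finite ι] [CommRing O] [CommRing R] [IsLocalRing R]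
    [IsNoetherianRing R] (I : Ideal O) [IsPrecomplete I O] (φ : MvPowerSeries ι O →+* R)
    (hs : ∀ a : R, ∃ o, a - φ (MvPowerSeries.C o) ∈ maximalIdeal R)
    (hI : ∀ o ∈ I, φ (MvPowerSeries.C o) ∈ maximalIdeal R)
    (hX : ∀ i, φ (MvPowerSeries.X i) ∈ maximalIdeal R)
    (hg : maximalIdeal R ≤ maximalIdeal R ^ 2 ⊔ I.map (φ.comp MvPowerSeries.C) ⊔
      Ideal.span (Set.range fun i => φ (MvPowerSeries.X i))) : Function.Surjective φ := by
  set A := (IX ι O).map φ with hA
  set B := I.map (φ.comp MvPowerSeries.C) with hB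
  have hAm : A ≤ maximalIdeal R := by
    rw [hA, map_IX, Ideal.span_le]
    rintro _ ⟨i, rfl⟩; exact hX i
  have hBm : B ≤ maximalIdeal R := Ideal.map_le_iff_le_comap.2 hI
  have hm : maximalIdeal R ≤ B ⊔ A := by
    refine Submodule.le_of_le_smul_of_le_jacobson_bot (I := maximalIdeal R)
      (IsNoetherian.noetherian _) (maximalIdeal_le_jacobson _) ?_
    rw [smul_eq_mul, ← pow_two, hA, map_IX, sup_comm, ← sup_assoc]
    exact hg
  have hAt : A ≠ ⊤ := ne_top_of_le_ne_top (maximalIdeal.isMaximal R).ne_top hAm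
  have _ : IsHausdorff ((IX ι O).map φ) R := haus_of_le hAt
  apply surjective_of_mk_map_comp_surjective (I := IX ι O) φ
  have _ : Nontrivial (R ⧸ A) := Ideal.Quotient.nontrivial_iff.2 hAt
  have _ : IsLocalRing (R ⧸ A) := IsLocalRing.of_surjective' _ Ideal.Quotient.mk_surjective
  let τ : O →+* R ⧸ A := (Ideal.Quotient.mk A).comp (φ.comp MvPowerSeries.C)
  have hτ : I.map τ = B.map (Ideal.Quotient.mk A) := by rw [hB, Ideal.map_map]
  have _ : IsHausdorff (I.map τ) (R ⧸ A) := haus_of_le (by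
    rw [hτ]
    intro h
    have h1 := congrArg (Ideal.comap (Ideal.Quotient.mk A)) h
    rw [Ideal.comap_map_of_surjective _ Ideal.Quotient.mk_surjective, ← RingHom.ker_eq_comap_bot,
      Ideal.mk_ker, Ideal.comap_top] at h1
    exact (maximalIdeal.isMaximal R).ne_top (top_le_iff.1 (h1 ▸ sup_le hBm hAm)))
  have hτs : Function.Surjective τ := by
    apply surjective_of_mk_map_comp_surjective (I := I) τ
    intro y
    obtain ⟨y, rfl⟩ := Ideal.Quotient.mk_surjective y
    obtain ⟨a, rfl⟩ := Ideal.Quotient.mk_surjective y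
    obtain ⟨o, ho⟩ := hs a
    refine ⟨o, (Ideal.Quotient.eq.2 ?_).symm⟩
    obtain ⟨b, hb, c, hc, e⟩ := Submodule.mem_sup.1 (hm ho)
    change Ideal.Quotient.mk A a - Ideal.Quotient.mk A (φ (MvPowerSeries.C o)) ∈ _
    rw [← map_sub, ← e, map_add, Ideal.Quotient.eq_zero_iff_mem.2 hc, add_zero, hτ]
    exact Ideal.mem_map_of_mem _ hb
  intro y
  obtain ⟨o, ho⟩ := hτs y
  exact ⟨MvPowerSeries.C o, ho⟩

/-- **TAN**: a surjection from the power series ring in the local coordinates `κ` and `g` more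
variables which lifts a fixed surjection `φ0` onto the quotient `R0` -/
theorem lift_surj {τ O R R0 F : Type*} [Finite τ] [CommRing O] [CommRing R] [CommRing R0]
    [Field F] [IsLocalRing R] [IsNoetherianRing R] [IsAdicComplete (maximalIdeal R) R]
    [IsLocalRing R0] [IsNoetherianRing R0] (σ : O →+* R) (π : R →+* F)
    (hs : Function.Surjective (π.comp σ)) [IsPrecomplete (RingHom.ker (π.comp σ)) O]
    (κ : τ → R) (hκ : ∀ i, π (κ i) = 0) {g : ℕ}
    (hD : ∀ Z : Submodule F (R → F), (∀ δ ∈ Z, Der σ π (RingHom.ker π ^ 2) δ ∧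
      ∀ i, δ (κ i) = 0) → Module.rank F Z ≤ g)
    (f : R →+* R0) (hf : Function.Surjective f) (φ0 : MvPowerSeries (τ ⊕ Fin g) O →+* R0)
    (h0 : Function.Surjective φ0) (hC : ∀ o, φ0 (MvPowerSeries.C o) = f (σ o))
    (hκ0 : ∀ i, φ0 (MvPowerSeries.X (Sum.inl i)) = f (κ i))
    (hy0 : ∀ i, φ0 (MvPowerSeries.X (Sum.inr i)) ∈ maximalIdeal R0) :
    ∃ φ : MvPowerSeries (τ ⊕ Fin g) O →+* R, Function.Surjective φ ∧
      (∀ o, φ (MvPowerSeries.C o) = σ o) ∧ (∀ i, φ (MvPowerSeries.X (Sum.inl i)) = κ i) ∧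
      (∀ i, φ (MvPowerSeries.X i) ∈ maximalIdeal R) ∧ f.comp φ = φ0 := by
  have hπ : Function.Surjective π := Function.Surjective.of_comp hs
  have hm : RingHom.ker π = maximalIdeal R :=
    eq_maximalIdeal (RingHom.ker_isMaximal_of_surjective π hπ)
  have hc : (maximalIdeal R0).comap f = maximalIdeal R :=
    eq_maximalIdeal (Ideal.comap_isMaximal_of_surjective f hf)
  have hK : RingHom.ker f ≤ RingHom.ker π := by
    rw [hm, ← hc]; intro a ha
    rw [Ideal.mem_comap, RingHom.mem_ker.1 ha]; exact zero_mem _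
  choose w hw using fun i => hf (φ0 (MvPowerSeries.X (Sum.inr i)))
  have hwm : ∀ i, π (w i) = 0 := fun i => by
    rw [← RingHom.mem_ker, hm, ← hc, Ideal.mem_comap, hw]; exact hy0 i
  let B := (RingHom.ker (π.comp σ)).map σ
  let J := RingHom.ker π ^ 2 ⊔ B ⊔ Ideal.span (Set.range κ)
  have hB : B ≤ RingHom.ker π := Ideal.map_le_iff_le_comap.2 fun o ho => ho
  have hJ : J ≤ RingHom.ker π := sup_le (sup_le (Ideal.pow_le_self two_ne_zero) hB)
    (Ideal.span_le.2 (by rintro _ ⟨i, rfl⟩; exact hκ i))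
  obtain ⟨y, hy, hg⟩ := tan σ π hs J (RingHom.ker f) hJ (le_sup_left.trans le_sup_left)
    (fun o ho => Ideal.mem_sup_left (Ideal.mem_sup_right (Ideal.mem_map_of_mem σ ho)))
    (fun Z hZ => hD Z fun δ hδ => ⟨⟨(hZ δ hδ).add, (hZ δ hδ).mul, (hZ δ hδ).cst, fun a ha =>
      (hZ δ hδ).kil a (Ideal.mem_sup_left (Ideal.mem_sup_left ha))⟩, fun i =>
      (hZ δ hδ).kil _ (Ideal.mem_sup_right (Ideal.subset_span ⟨i, rfl⟩))⟩) hK w hwm (by
    intro a ha
    obtain ⟨p, hp⟩ := h0 (f a)
    set c := MvPowerSeries.constantCoeff p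
    have h1 := Ideal.mem_map_of_mem φ0 (mem_IX (p - MvPowerSeries.C c) (by simp [c]))
    have h2 : (IX (τ ⊕ Fin g) O).map φ0 ≤
        (Ideal.span (Set.range κ) ⊔ Ideal.span (Set.range w)).map f := by
      rw [map_IX, Ideal.span_le]
      rintro _ ⟨i | i, rfl⟩
      · change φ0 _ ∈ _
        rw [hκ0]
        exact Ideal.mem_map_of_mem f (Ideal.mem_sup_left (Ideal.subset_span ⟨i, rfl⟩))
      · change φ0 _ ∈ _
        rw [← hw]
        exact Ideal.mem_map_of_mem f (Ideal.mem_sup_right (Ideal.subset_span ⟨i, rfl⟩))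
    have h3 := h2 h1
    rw [map_sub, hp, hC, ← map_sub, ← Ideal.mem_comap, Ideal.comap_map_of_surjective _ hf,
      ← RingHom.ker_eq_comap_bot] at h3
    have h4 : Ideal.span (Set.range κ) ⊔ Ideal.span (Set.range w) ⊔ RingHom.ker f ≤
        RingHom.ker π := sup_le (sup_le (le_sup_right.trans hJ)
      (Ideal.span_le.2 (by rintro _ ⟨i, rfl⟩; exact hwm i))) hK
    have h5 : π (σ c) = 0 := by
      have := h4 h3
      rwa [RingHom.mem_ker, map_sub, RingHom.mem_ker.1 ha, zero_sub, neg_eq_zero] at this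
    have h6 : Ideal.span (Set.range κ) ⊔ Ideal.span (Set.range w) ⊔ RingHom.ker f ≤
        J ⊔ RingHom.ker f ⊔ Ideal.span (Set.range w) :=
      sup_le (sup_le (le_sup_right.trans (le_sup_left.trans le_sup_left)) le_sup_right)
        (le_sup_right.trans le_sup_left)
    have h7 : σ c ∈ J ⊔ RingHom.ker f ⊔ Ideal.span (Set.range w) :=
      Ideal.mem_sup_left (Ideal.mem_sup_left (Ideal.mem_sup_left
        (Ideal.mem_sup_right (Ideal.mem_map_of_mem σ h5))))
    have := Ideal.add_mem _ (h6 h3) h7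
    rwa [sub_add_cancel] at this)
  have hym : ∀ i, y i ∈ maximalIdeal R := fun i => by
    have := Ideal.add_mem _ (hK (hy i)) (RingHom.mem_ker.2 (hwm i))
    rwa [sub_add_cancel, hm] at this
  have hx : ∀ i, Sum.elim κ y i ∈ maximalIdeal R := by
    rintro (i | i)
    · exact hm ▸ hκ i
    · exact hym i
  obtain ⟨φ, h1, h2⟩ := exists_ev (maximalIdeal R) σ (Sum.elim κ y) hx
  have e : φ.comp MvPowerSeries.C = σ := RingHom.ext h1
  refine ⟨φ, ev_surj (RingHom.ker (π.comp σ)) φ (fun a => ?_) (fun o ho => ?_)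
    (fun i => h2 i ▸ hx i) ?_, h1, fun i => h2 _, fun i => h2 i ▸ hx i, ?_⟩
  · obtain ⟨o, ho⟩ := hs (π a)
    exact ⟨o, by rw [← hm, RingHom.mem_ker, map_sub, h1, sub_eq_zero]; exact ho.symm⟩
  · rw [h1, ← hm]; exact ho
  · rw [← hm, e]
    refine hg.trans (sup_le (sup_le le_sup_left (le_trans (Ideal.span_mono ?_) le_sup_right))
      (le_trans (Ideal.span_mono ?_) le_sup_right))
    · rintro _ ⟨i, rfl⟩; exact ⟨Sum.inl i, h2 _⟩
    · rintro _ ⟨i, rfl⟩; exact ⟨Sum.inr i, h2 _⟩
  · have _ : IsHausdorff (maximalIdeal R0) R0 := haus_of_le (maximalIdeal.isMaximal R0).ne_top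
    refine ev_ext (maximalIdeal R0) (fun o => ?_) ?_ fun i => ?_
    · rw [RingHom.comp_apply, h1, hC]
    · rintro (i | i)
      · rw [RingHom.comp_apply, h2, hκ0]; rfl
      · rw [RingHom.comp_apply, h2, ← hw, ← sub_eq_zero, ← map_sub]; exact hy i
    · rw [RingHom.comp_apply, ← Ideal.mem_comap, hc, h2]; exact hx i

/-- the first surjection -/
theorem exists_surj {τ O R F : Type*} [Finite τ] [CommRing O] [CommRing R]
    [Field F] [IsLocalRing R] [IsNoetherianRing R] [IsAdicComplete (maximalIdeal R) R]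
    (σ : O →+* R) (π : R →+* F)
    (hs : Function.Surjective (π.comp σ)) [IsPrecomplete (RingHom.ker (π.comp σ)) O]
    (κ : τ → R) (hκ : ∀ i, π (κ i) = 0) {g : ℕ}
    (hD : ∀ Z : Submodule F (R → F), (∀ δ ∈ Z, Der σ π (RingHom.ker π ^ 2) δ ∧
      ∀ i, δ (κ i) = 0) → Module.rank F Z ≤ g) :
    ∃ φ : MvPowerSeries (τ ⊕ Fin g) O →+* R, Function.Surjective φ ∧
      (∀ o, φ (MvPowerSeries.C o) = σ o) ∧ (∀ i, φ (MvPowerSeries.X (Sum.inl i)) = κ i) ∧
      ∀ i, φ (MvPowerSeries.X i) ∈ maximalIdeal R := by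
  have hπ : Function.Surjective π := Function.Surjective.of_comp hs
  have hm : RingHom.ker π = maximalIdeal R :=
    eq_maximalIdeal (RingHom.ker_isMaximal_of_surjective π hπ)
  let B := (RingHom.ker (π.comp σ)).map σ
  let J := RingHom.ker π ^ 2 ⊔ B ⊔ Ideal.span (Set.range κ)
  have hB : B ≤ RingHom.ker π := Ideal.map_le_iff_le_comap.2 fun o ho => ho
  have hJ : J ≤ RingHom.ker π := sup_le (sup_le (Ideal.pow_le_self two_ne_zero) hB)
    (Ideal.span_le.2 (by rintro _ ⟨i, rfl⟩; exact hκ i))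
  obtain ⟨y, hy, hg⟩ := tan σ π hs J (RingHom.ker π) hJ (le_sup_left.trans le_sup_left)
    (fun o ho => Ideal.mem_sup_left (Ideal.mem_sup_right (Ideal.mem_map_of_mem σ ho)))
    (fun Z hZ => hD Z fun δ hδ => ⟨⟨(hZ δ hδ).add, (hZ δ hδ).mul, (hZ δ hδ).cst, fun a ha =>
      (hZ δ hδ).kil a (Ideal.mem_sup_left (Ideal.mem_sup_left ha))⟩, fun i =>
      (hZ δ hδ).kil _ (Ideal.mem_sup_right (Ideal.subset_span ⟨i, rfl⟩))⟩) le_rfl
    (fun _ => 0) (fun _ => map_zero π) (le_sup_right.trans le_sup_left)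
  have hx : ∀ i, Sum.elim κ y i ∈ maximalIdeal R := by
    rintro (i | i)
    · exact hm ▸ hκ i
    · have := hy i
      rwa [sub_zero, hm] at this
  obtain ⟨φ, h1, h2⟩ := exists_ev (maximalIdeal R) σ (Sum.elim κ y) hx
  have e : φ.comp MvPowerSeries.C = σ := RingHom.ext h1
  refine ⟨φ, ev_surj (RingHom.ker (π.comp σ)) φ (fun a => ?_) (fun o ho => ?_)
    (fun i => h2 i ▸ hx i) ?_, h1, fun i => h2 _, fun i => h2 i ▸ hx i⟩
  · obtain ⟨o, ho⟩ := hs (π a)
    exact ⟨o, by rw [← hm, RingHom.mem_ker, map_sub, h1, sub_eq_zero]; exact ho.symm⟩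
  · rw [h1, ← hm]; exact ho
  · rw [← hm, e]
    refine hg.trans (sup_le (sup_le le_sup_left (le_trans (Ideal.span_mono ?_) le_sup_right))
      (le_trans (Ideal.span_mono ?_) le_sup_right))
    · rintro _ ⟨i, rfl⟩; exact ⟨Sum.inl i, h2 _⟩
    · rintro _ ⟨i, rfl⟩; exact ⟨Sum.inr i, h2 _⟩

end Vale.Agent.P022D.NR
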