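import Vale.Agent.P022D.NR.Core

/-!
P022D, block NR: the representation attached to a trace function, its uniqueness in normal form,
and the ring generated by its entries.
-/

open Matrix

noncomputable section

namespace Vale.Agent.P022D.NR

open Vale.Agent.P022.H346

variable {G A : Type*} [Group G] [CommRing A]

section normal

variable {ρ ρ' : G →* Matrix (Fin 2) (Fin 2) A} {g0 g1 g2 : G} {α β : A}

theorem e00 (h0 : ρ g0 = !![α, 0; 0, β]) (g : G) :
    (α - β) * ρ g 0 0 = (ρ (g0 * g)).trace - β * (ρ g).trace := by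
  rw [map_mul, h0, trace_fin_two, trace_fin_two, mul_apply, mul_apply]
  simp
  ring

theorem e11 (ρ : G →* Matrix (Fin 2) (Fin 2) A) (g : G) : ρ g 1 1 = (ρ g).trace - ρ g 0 0 := by
  rw [trace_fin_two]; ring

theorem e01 (ρ : G →* Matrix (Fin 2) (Fin 2) A) (g k : G) :
    ρ g 0 1 * ρ k 1 0 = ρ (g * k) 0 0 - ρ g 0 0 * ρ k 0 0 := by
  rw [map_mul, mul_apply, Fin.sum_univ_two]; ring

/-- two representations in the same normal form with congruent traces are congruent -/
theorem congr_of_trace (J : Ideal A) (h0 : ρ g0 = !![α, 0; 0, β]) (h0' : ρ' g0 = !![α, 0; 0, β])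
    (hu : IsUnit (α - β)) (h1 : ρ g1 0 1 = ρ' g1 0 1) (u1 : IsUnit (ρ g1 0 1))
    (u2 : IsUnit (ρ g2 1 0)) (ht : ∀ g, (ρ g).trace - (ρ' g).trace ∈ J) (g : G) (i j : Fin 2) :
    ρ g i j - ρ' g i j ∈ J := by
  have a : ∀ g, ρ g 0 0 - ρ' g 0 0 ∈ J := by
    intro g
    refine (J.unit_mul_mem_iff_mem hu).1 ?_
    rw [mul_sub, e00 h0, e00 h0']
    have := J.sub_mem (ht (g0 * g)) (J.mul_mem_left β (ht g))
    convert this using 1
    ring
  have x : ∀ g k, ρ g 0 1 * ρ k 1 0 - ρ' g 0 1 * ρ' k 1 0 ∈ J := by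
    intro g k
    rw [e01, e01]
    have := J.sub_mem (a (g * k)) (J.add_mem (J.mul_mem_left (ρ g 0 0) (a k))
      (J.mul_mem_left (ρ' k 0 0) (a g)))
    convert this using 1
    ring
  have c : ∀ k, ρ k 1 0 - ρ' k 1 0 ∈ J := by
    intro k
    refine (J.unit_mul_mem_iff_mem u1).1 ?_
    have := x g1 k
    rw [← h1] at this
    rwa [mul_sub]
  have b : ∀ g, ρ g 0 1 - ρ' g 0 1 ∈ J := by
    intro g
    refine (J.unit_mul_mem_iff_mem u2).1 ?_
    have := J.sub_mem (x g g2) (J.mul_mem_left (ρ' g 0 1) (c g2))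
    convert this using 1
    ring
  fin_cases i <;> fin_cases j
  · exact a g
  · exact b g
  · exact c g
  · change ρ g 1 1 - ρ' g 1 1 ∈ J
    rw [e11, e11 ρ']
    have := J.sub_mem (ht g) (a g)
    convert this using 1
    ring

/-- uniqueness in normal form -/
theorem uniq (h0 : ρ g0 = !![α, 0; 0, β]) (h0' : ρ' g0 = !![α, 0; 0, β])
    (hu : IsUnit (α - β)) (h1 : ρ g1 0 1 = ρ' g1 0 1) (u1 : IsUnit (ρ g1 0 1))
    (u2 : IsUnit (ρ g2 1 0)) (ht : ∀ g, (ρ g).trace = (ρ' g).trace) : ρ = ρ' := by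
  ext g i j
  have := congr_of_trace (⊥ : Ideal A) h0 h0' hu h1 u1 u2
    (fun g => by rw [ht, sub_self]; exact zero_mem _) g i j
  exact sub_eq_zero.1 (Ideal.mem_bot.1 this)

/-- in normal form the entries lie in the ring of traces -/
theorem entry_mem (B : Subring A) (hB : ∀ x ∈ B, ∀ y : A, x * y = 1 → y ∈ B)
    (h0 : ρ g0 = !![α, 0; 0, β]) (hu : IsUnit (α - β)) (u1 : IsUnit (ρ g1 0 1))
    (u2 : IsUnit (ρ g2 1 0)) (hα : α ∈ B) (hβ : β ∈ B) (h1 : ρ g1 0 1 ∈ B)
    (ht : ∀ g, (ρ g).trace ∈ B) (g : G) (i j : Fin 2) : ρ g i j ∈ B := by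
  have dv : ∀ u x : A, IsUnit u → u ∈ B → u * x ∈ B → x ∈ B := by
    intro u x hu h1 h2
    obtain ⟨v, hv⟩ := hu.exists_right_inv
    have := B.mul_mem (hB u h1 v hv) h2
    rwa [← mul_assoc, mul_comm v, hv, one_mul] at this
  have a : ∀ g, ρ g 0 0 ∈ B := fun g => dv _ _ hu (B.sub_mem hα hβ) (by
    rw [e00 h0]; exact B.sub_mem (ht _) (B.mul_mem hβ (ht _)))
  have x : ∀ g k, ρ g 0 1 * ρ k 1 0 ∈ B := fun g k => by
    rw [e01]; exact B.sub_mem (a _) (B.mul_mem (a _) (a _))
  have c : ∀ k, ρ k 1 0 ∈ B := fun k => dv _ _ u1 h1 (x g1 k)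
  have b : ∀ g, ρ g 0 1 ∈ B := fun g => dv _ _ u2 (c g2) (by rw [mul_comm]; exact x g g2)
  fin_cases i <;> fin_cases j
  · exact a g
  · exact b g
  · exact c g
  · change ρ g 1 1 ∈ B
    rw [e11]; exact B.sub_mem (ht g) (a g)

end normal

theorem T0_mul_of (t : G → A) (z : MonoidAlgebra A G) (g : G) :
    T0 t (z * MonoidAlgebra.of A G g) = z.coeff.sum fun k c => c * t (k * g) := by
  induction z using MonoidAlgebra.induction_linear with
  | zero => simp
  | add x y hx hy =>
    rw [add_mul, map_add, hx, hy, MonoidAlgebra.coeff_add, Finsupp.sum_add_index']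
    · intro a; exact zero_mul _
    · intro a b c; exact add_mul _ _ _
  | single k c =>
    have h : (MonoidAlgebra.single k c : MonoidAlgebra A G) = c • MonoidAlgebra.of A G k := by
      simp [MonoidAlgebra.of]
    rw [MonoidAlgebra.coeff_single, Finsupp.sum_single_index (zero_mul _), h, smul_mul_assoc,
      map_smul, ← map_mul, T0_of, smul_eq_mul]

theorem det_of_sq {M : Matrix (Fin 2) (Fin 2) A} {d : A}
    (h : M * M = M.trace • M - d • (1 : Matrix (Fin 2) (Fin 2) A)) : M.det = d := by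
  have := congrFun (congrFun h 0) 0
  rw [mul_apply, Fin.sum_univ_two, trace_fin_two] at this
  simp only [Matrix.sub_apply, Matrix.smul_apply, smul_eq_mul, one_apply_eq, mul_one] at this
  rw [det_fin_two]
  linear_combination -this

/-- **existence**: a trace function with split, absolutely irreducible residual representation
`rb` is the trace of a lift of `rb` in normal form -/
theorem nr {k : Type*} [Field k] (π : A →+* k) (hu : ∀ a, π a ≠ 0 → IsUnit a)
    {t : G → A} {d : G →* Aˣ} (h : TF t d) (rb : G →* Matrix (Fin 2) (Fin 2) k)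
    (ht : ∀ g, π (t g) = (rb g).trace) {g0 g1 g2 : G} {α β lam : A} (hs : α + β = t g0)
    (hp : α * β = d g0) (h0 : rb g0 = !![π α, 0; 0, π β]) (hne : π α ≠ π β)
    (h1 : rb g1 0 1 ≠ 0) (h2 : rb g2 1 0 ≠ 0) (hl : π lam = rb g1 0 1) :
    ∃ ρ : G →* Matrix (Fin 2) (Fin 2) A, (∀ g, (ρ g).trace = t g) ∧ (∀ g, (ρ g).det = d g) ∧
      (∀ g, (ρ g).map π = rb g) ∧ ρ g0 = !![α, 0; 0, β] ∧ ρ g1 0 1 = lam ∧
      ∃ z : Fin 2 → Fin 2 → G →₀ A, ∀ g i j, ρ g i j = (z i j).sum fun k c => c * t (k * g) := by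
  have hne' : π (α - β) ≠ 0 := by rw [map_sub]; exact sub_ne_zero.2 hne
  obtain ⟨u, hu1⟩ := (hu _ hne').exists_right_inv
  obtain ⟨l, hl1⟩ := (hu lam (by rw [hl]; exact h1)).exists_right_inv
  let _ : Algebra A k := π.toAlgebra
  have hπ : ∀ a, algebraMap A k a = π a := fun _ => rfl
  let Φ : MonoidAlgebra A G →ₐ[A] Matrix (Fin 2) (Fin 2) k :=
    MonoidAlgebra.lift A (Matrix (Fin 2) (Fin 2) k) G rb
  have Φo : ∀ g, Φ (MonoidAlgebra.of A G g) = rb g := fun g => MonoidAlgebra.lift_of rb g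
  have hΦ : ∀ x, π (T0 t x) = (Φ x).trace := by
    intro x
    induction x using MonoidAlgebra.induction_on with
    | of g => rw [T0_of, Φo, ht]
    | add x y hx hy => rw [map_add, map_add, map_add, trace_add, hx, hy]
    | smul a x hx =>
      rw [map_smul (T0 t), map_smul Φ, trace_smul, smul_eq_mul, map_mul, hx, Algebra.smul_def, hπ]
  let e0 : MonoidAlgebra A G := u • (MonoidAlgebra.of A G g0 - β • 1)
  have hπu : (π α - π β) * π u = 1 := by rw [← map_sub, ← map_mul, hu1, map_one]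
  have Φe : Φ e0 = !![1, 0; 0, 0] := by
    change Φ (u • (MonoidAlgebra.of A G g0 - β • 1)) = _
    rw [map_smul, map_sub, map_smul, map_one, Φo, h0]
    ext i j
    simp only [Matrix.smul_apply, Matrix.sub_apply, Algebra.smul_def (R := A) (A := k), hπ]
    fin_cases i <;> fin_cases j <;> simp
    linear_combination hπu
  let X : A := T0 t (e0 * MonoidAlgebra.of A G g1 * (1 - e0) * MonoidAlgebra.of A G g2)
  have hX : π X = rb g1 0 1 * rb g2 1 0 := by
    change π (T0 t _) = _
    rw [hΦ, map_mul, map_mul, map_mul, map_sub, map_one, Φe, Φo, Φo, trace_fin_two]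
    simp only [mul_apply, Fin.sum_univ_two, Matrix.sub_apply]
    simp
  obtain ⟨Y, hY⟩ := (hu X (by rw [hX]; exact mul_ne_zero h1 h2)).exists_right_inv
  let mk := (con h).mkₐ A
  let e := mk e0
  have ee : e = u • (io h g0 - β • 1) := by
    change mk (u • (MonoidAlgebra.of A G g0 - β • 1)) = _
    rw [map_smul, map_sub, map_smul, map_one]; rfl
  have g0e : io h g0 = (α - β) • e + β • 1 := by
    rw [ee, smul_smul, hu1, one_smul, sub_add_cancel]
  have he : e * e = e := by
    have h3 : (io h g0 - β • 1) * (io h g0 - β • 1) = (α - β) • (io h g0 - β • 1) := by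
      simp only [mul_sub, sub_mul, smul_mul_assoc, mul_smul_comm, one_mul, mul_one]
      rw [io_sq, ← hs, ← hp]
      module
    rw [ee, smul_mul_assoc, mul_smul_comm, h3, smul_smul u (α - β), mul_comm u, hu1, one_smul]
  have hT : TQ h e = 1 := by
    rw [ee, map_smul, map_sub, map_smul, TQ_io, TQ_one, ← hs, smul_eq_mul, smul_eq_mul]
    linear_combination hu1
  have hf : (1 - e) * (1 - e) = 1 - e := by
    rw [mul_sub, sub_mul, sub_mul, he]; simp
  let b0 : MonoidAlgebra A G := l • (e0 * MonoidAlgebra.of A G g1 * (1 - e0))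
  let c0 : MonoidAlgebra A G := (lam * Y) • ((1 - e0) * MonoidAlgebra.of A G g2 * e0)
  have eb : mk b0 = l • (e * io h g1 * (1 - e)) := by
    change mk (l • _) = _
    rw [map_smul, map_mul, map_mul, map_sub, map_one]; rfl
  have ec : mk c0 = (lam * Y) • ((1 - e) * io h g2 * e) := by
    change mk ((lam * Y) • _) = _
    rw [map_smul, map_mul, map_mul, map_sub, map_one]; rfl
  have eX : TQ h (e * io h g1 * (1 - e) * io h g2) = X := by
    change _ = TQ h (mk _)
    rw [map_mul mk, map_mul mk, map_mul mk, map_sub mk, map_one mk]; rfl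
  have hb : e * mk b0 * (1 - e) = mk b0 := by
    rw [eb, mul_smul_comm, smul_mul_assoc, ← mul_assoc, ← mul_assoc, he, mul_assoc _ (1 - e), hf]
  have hc : (1 - e) * mk c0 * e = mk c0 := by
    rw [ec, mul_smul_comm, smul_mul_assoc, ← mul_assoc, ← mul_assoc, hf, mul_assoc _ e, he]
  have hbc : TQ h (mk b0 * mk c0) = 1 := by
    rw [eb, ec, smul_mul_assoc, mul_smul_comm, map_smul, map_smul, ← mul_assoc, ← mul_assoc,
      mul_assoc _ (1 - e) (1 - e), hf, TQ_comm, ← mul_assoc, ← mul_assoc, ← mul_assoc, he, eX,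
      smul_eq_mul, smul_eq_mul]
    linear_combination (Y * X) * hl1 + hY
  obtain ⟨φ, hφ⟩ := core (TQ h) (TQ_comm h) (TQ_one h) (TQ_pol h) he hT hb hc hbc
  let ρ : G →* Matrix (Fin 2) (Fin 2) A :=
    (φ : (con h).Quotient →* Matrix (Fin 2) (Fin 2) A).comp (io h)
  have hρ : ∀ g, ρ g = φ (io h g) := fun _ => rfl
  have tr : ∀ g, (ρ g).trace = t g := by
    intro g
    rw [hρ, hφ, trace_fin_two_of, ← map_add, ← add_mul, add_sub_cancel, one_mul, TQ_io]
  have φe : φ e = !![1, 0; 0, 0] := by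
    have h3 : mk c0 * e = mk c0 := by rw [← hc, mul_assoc, he]
    have h4 : (1 - e) * e = 0 := by rw [sub_mul, he]; simp
    have h5 : e * (1 - e) = 0 := by rw [mul_sub, he]; simp
    have h6 : TQ h (mk c0) = 0 := by
      rw [← hc, TQ_comm, ← mul_assoc, h5, zero_mul, map_zero]
    have h7 : mk b0 * e = 0 := by rw [← hb, mul_assoc, h4, mul_zero]
    rw [hφ, he, hT, h3, h6, h7, h4, map_zero]
  have r0 : ρ g0 = !![α, 0; 0, β] := by
    rw [hρ, g0e, map_add, map_smul, map_smul, map_one, φe]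
    ext i j
    fin_cases i <;> fin_cases j <;> simp
  have r1 : ρ g1 0 1 = lam := by
    rw [hρ, hφ]
    change TQ h (mk c0 * io h g1) = lam
    rw [ec, smul_mul_assoc, map_smul, mul_assoc, TQ_comm, ← mul_assoc, eX, smul_eq_mul]
    linear_combination lam * hY
  have red : (π.mapMatrix (m := Fin 2)).toMonoidHom.comp ρ = rb := by
    refine (uniq (ρ := rb) (g0 := g0) (g1 := g1) (g2 := g2) h0 ?_
      (sub_ne_zero.2 hne).isUnit ?_ h1.isUnit h2.isUnit fun g => ?_).symm
    · change (ρ g0).map π = _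
      rw [r0]
      ext i j
      fin_cases i <;> fin_cases j <;> simp
    · change _ = π (ρ g1 0 1)
      rw [r1, hl]
    · change _ = ((ρ g).map π).trace
      rw [← AddMonoidHom.map_trace, tr, ht]
  refine ⟨ρ, tr, fun g => det_of_sq ?_, fun g => ?_, r0, r1,
    fun i j => (!![e0, c0; b0, 1 - e0] i j).coeff, fun g i j => ?_⟩
  · rw [tr, hρ, ← map_mul, io_sq, map_sub, map_smul, map_smul, map_one]
  · rw [← red]; rfl
  · rw [← T0_mul_of, ← TQ_mk h, map_mul, hρ, hφ]
    fin_cases i <;> fin_cases j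
    · rfl
    · rfl
    · rfl
    · change TQ h ((1 - e) * io h g) = TQ h (mk (1 - e0) * io h g)
      rw [map_sub mk, map_one mk]

/-- an element that does not change the traces modulo `J` acts trivially modulo `J` -/
theorem sub_mem_of_sum {t : G → A} {ρ : G →* Matrix (Fin 2) (Fin 2) A}
    {z : Fin 2 → Fin 2 → G →₀ A}
    (hz : ∀ g i j, ρ g i j = (z i j).sum fun k c => c * t (k * g)) (J : Ideal A) {g g' : G}
    (hg : ∀ k, t (k * g) - t (k * g') ∈ J) (i j : Fin 2) : ρ g i j - ρ g' i j ∈ J := by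
  rw [hz, hz, Finsupp.sum, Finsupp.sum, ← Finset.sum_sub_distrib]
  refine J.sum_mem fun k _ => ?_
  rw [← mul_sub]
  exact J.mul_mem_left _ (hg k)

/-- Hensel's lemma for the characteristic polynomial -/
theorem exists_roots {k : Type*} [Field k] (π : A →+* k) (hπ : Function.Surjective π)
    (I : Ideal A) [HenselianRing A I] (hI : ∀ a, a ∈ I ↔ π a = 0) {t d : A} {a b : k}
    (hs : a + b = π t) (hp : a * b = π d) (hne : a ≠ b) :
    ∃ α β : A, α + β = t ∧ α * β = d ∧ π α = a ∧ π β = b := by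
  obtain ⟨a0, rfl⟩ := hπ a
  have hm : (Polynomial.X ^ 2 + (Polynomial.C (-t) * Polynomial.X + Polynomial.C d) :
      Polynomial A).Monic := by
    refine Polynomial.monic_X_pow_add ?_
    exact (Polynomial.degree_linear_le).trans_lt (by norm_num)
  obtain ⟨α, h1, h2⟩ := HenselianRing.is_henselian (I := I) _ hm a0 (by
    rw [hI]; simp
    linear_combination (π a0) * hs - hp) (by
    have hk : I = RingHom.ker π := by ext a; rw [hI, RingHom.mem_ker]
    have _ : I.IsMaximal := hk ▸ RingHom.ker_isMaximal_of_surjective π hπ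
    let _ := Ideal.Quotient.field I
    refine Ne.isUnit fun h0 => hne ?_
    rw [Ideal.Quotient.eq_zero_iff_mem, hI] at h0
    simp at h0
    linear_combination h0 - hs)
  rw [hI, map_sub, sub_eq_zero] at h2
  simp at h1
  refine ⟨α, t - α, by ring, by linear_combination -h1, h2, ?_⟩
  rw [map_sub, h2]
  linear_combination -hs

end Vale.Agent.P022D.NR
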