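import Vale.Agent.P022.H346.FAlg

/-!
P022D, block NR: a two-dimensional trace function whose residual representation is split at one
element and absolutely irreducible is the trace of a true representation.
-/

open Matrix

noncomputable section

namespace Vale.Agent.P022D.NR

open Vale.Agent.P022.H346

section core

variable {A S : Type*} [CommRing A] [Ring S] [Algebra A S]

theorem corner (T : S →ₗ[A] A) (Tc : ∀ x y, T (x * y) = T (y * x))
    (pol : ∀ x y, x * y + y * x = T x • y + T y • x + (T (x * y) - T x * T y) • (1 : S))
    {e : S} (he : e * e = e) (hT : T e = 1) (x : S) : e * x * e = T (e * x) • e := by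
  have h := pol e (e * x * e)
  have h1 : e * (e * x * e) = e * x * e := by rw [← mul_assoc, ← mul_assoc, he]
  have h2 : e * x * e * e = e * x * e := by rw [mul_assoc, he]
  have h3 : T (e * x * e) = T (e * x) := by rw [Tc, ← mul_assoc, he]
  rw [h1, h2, hT, h3, one_smul, one_mul, sub_self, zero_smul, add_zero] at h
  exact add_left_cancel h

/-- matrix units give a representation -/
theorem core (T : S →ₗ[A] A) (Tc : ∀ x y, T (x * y) = T (y * x)) (T1 : T 1 = 2)
    (pol : ∀ x y, x * y + y * x = T x • y + T y • x + (T (x * y) - T x * T y) • (1 : S))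
    {e b c : S} (he : e * e = e) (hT : T e = 1) (hb : e * b * (1 - e) = b)
    (hc : (1 - e) * c * e = c) (hbc : T (b * c) = 1) :
    ∃ φ : S →ₐ[A] Matrix (Fin 2) (Fin 2) A, ∀ x,
      φ x = !![T (e * x), T (c * x); T (b * x), T ((1 - e) * x)] := by
  have hf : (1 - e) * (1 - e) = 1 - e := by
    rw [mul_sub, sub_mul, sub_mul, he]; simp
  have hTf : T (1 - e) = 1 := by rw [map_sub, T1, hT]; norm_num
  have hef : e * (1 - e) = 0 := by rw [mul_sub, he]; simp
  have hfe : (1 - e) * e = 0 := by rw [sub_mul, he]; simp
  have eb : e * b = b := by rw [← hb, ← mul_assoc, ← mul_assoc, he]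
  have bf : b * (1 - e) = b := by rw [← hb, mul_assoc, hf]
  have fc : (1 - e) * c = c := by rw [← hc, ← mul_assoc, ← mul_assoc, hf]
  have ce : c * e = c := by rw [← hc, mul_assoc, he]
  have be : b * e = 0 := by rw [← bf, mul_assoc, hfe, mul_zero]
  have ec : e * c = 0 := by rw [← fc, ← mul_assoc, hef, zero_mul]
  have bc : b * c = e := by
    have h := corner T Tc pol he hT (b * c)
    rw [← mul_assoc, eb, mul_assoc, ce, hbc, one_smul] at h
    exact h
  have cb : c * b = 1 - e := by
    have h := corner T Tc pol hf hTf (c * b)
    rw [← mul_assoc, fc, mul_assoc, bf, Tc, hbc, one_smul] at h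
    exact h
  -- rows `P` and columns `Q`
  let P : Fin 2 → S := ![e, b]
  let Q : Fin 2 → S := ![e, c]
  have hP : ∀ i, e * P i = P i := by
    intro i; fin_cases i
    · exact he
    · exact eb
  have hQ : ∀ i, Q i * e = Q i := by
    intro i; fin_cases i
    · exact he
    · exact ce
  have key : ∀ i j x, P i * x * Q j = T (P i * x * Q j) • e := by
    intro i j x
    have h := corner T Tc pol he hT (P i * x * Q j)
    rw [← mul_assoc, ← mul_assoc, hP, mul_assoc, hQ] at h
    exact h
  have hsum : Q 0 * P 0 + Q 1 * P 1 = 1 := by
    change e * e + c * b = 1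
    rw [he, cb]; simp
  let F : S →ₗ[A] Matrix (Fin 2) (Fin 2) A :=
    { toFun := fun x => Matrix.of fun i j => T (P i * x * Q j)
      map_add' := fun x y => by
        ext i j
        simp only [of_apply, Matrix.add_apply, mul_add, add_mul, map_add]
      map_smul' := fun a x => by
        ext i j
        simp only [of_apply, Matrix.smul_apply, mul_smul_comm, smul_mul_assoc, map_smul,
          RingHom.id_apply] }
  have F1 : F 1 = 1 := by
    ext i j
    change T (P i * 1 * Q j) = _
    rw [mul_one]
    fin_cases i <;> fin_cases j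
    · change T (e * e) = 1
      rw [he, hT]
    · change T (e * c) = 0
      rw [ec, map_zero]
    · change T (b * e) = 0
      rw [be, map_zero]
    · change T (b * c) = 1
      exact hbc
  have Fm : ∀ x y, F (x * y) = F x * F y := by
    intro x y
    ext i j
    rw [mul_apply, Fin.sum_univ_two]
    change T (P i * (x * y) * Q j) = T (P i * x * Q 0) * T (P 0 * y * Q j) +
      T (P i * x * Q 1) * T (P 1 * y * Q j)
    have h : ∀ k, T (P i * x * Q k) * T (P k * y * Q j) =
        T (P i * x * (Q k * P k) * y * Q j) := by
      intro k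
      have h1 : P i * x * (Q k * P k) * y * Q j = (P i * x * Q k) * (P k * y * Q j) := by
        simp only [mul_assoc]
      rw [h1]
      conv_rhs => rw [key i k x, smul_mul_assoc, map_smul, ← mul_assoc, ← mul_assoc, hP]
      rfl
    rw [h, h, ← map_add, ← add_mul, ← add_mul, ← mul_add, hsum, mul_one, mul_assoc (P i) x y]
  refine ⟨AlgHom.ofLinearMap F F1 Fm, fun x => ?_⟩
  ext i j
  change T (P i * x * Q j) = _
  fin_cases i <;> fin_cases j
  · change T (e * x * e) = T (e * x)
    rw [Tc, ← mul_assoc, he]
  · change T (e * x * c) = T (c * x)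
    rw [Tc, ← mul_assoc, ce]
  · change T (b * x * e) = T (b * x)
    rw [Tc, ← mul_assoc, eb]
  · change T (b * x * c) = T ((1 - e) * x)
    rw [Tc, ← mul_assoc, cb]

end core

section grp

variable {G A : Type*} [Group G] [CommRing A]

/-- the linear extension of `t` to the group ring -/
def T0 (t : G → A) : MonoidAlgebra A G →ₗ[A] A :=
  Finsupp.linearCombination A t ∘ₗ (MonoidAlgebra.coeffLinearEquiv A).toLinearMap

theorem T0_of (t : G → A) (g : G) : T0 t (MonoidAlgebra.of A G g) = t g := by
  simp [T0, MonoidAlgebra.of]

variable {t : G → A} {d : G →* Aˣ}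

theorem T0_comm (h : TF t d) (x y : MonoidAlgebra A G) : T0 t (x * y) = T0 t (y * x) := by
  induction x using MonoidAlgebra.induction_on with
  | of g =>
    induction y using MonoidAlgebra.induction_on with
    | of k => rw [← map_mul, ← map_mul, T0_of, T0_of, h.comm]
    | add y z hy hz => rw [mul_add, add_mul, map_add, map_add, hy, hz]
    | smul a y hy => rw [mul_smul_comm, smul_mul_assoc, map_smul, map_smul, hy]
  | add x z hx hz => rw [mul_add, add_mul, map_add, map_add, hx, hz]
  | smul a x hx => rw [mul_smul_comm, smul_mul_assoc, map_smul, map_smul, hx]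

theorem T0_pol (h : TF t d) (x y z : MonoidAlgebra A G) :
    T0 t (x * y * z) + T0 t (y * x * z) = T0 t x * T0 t (y * z) + T0 t y * T0 t (x * z) +
      (T0 t (x * y) - T0 t x * T0 t y) * T0 t z := by
  induction x using MonoidAlgebra.induction_on with
  | of g =>
    induction y using MonoidAlgebra.induction_on with
    | of k =>
      induction z using MonoidAlgebra.induction_on with
      | of v =>
        simp only [← map_mul, T0_of]
        have e := h.swap 1 g k v
        simp only [one_mul] at e
        linear_combination e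
      | add y z hy hz =>
        simp only [mul_add, map_add] at *
        linear_combination hy + hz
      | smul a y hy =>
        simp only [mul_smul_comm, map_smul, smul_eq_mul] at *
        linear_combination a * hy
    | add y w hy hw =>
      simp only [mul_add, add_mul, map_add] at *
      linear_combination hy + hw
    | smul a y hy =>
      simp only [mul_smul_comm, smul_mul_assoc, map_smul, smul_eq_mul] at *
      linear_combination a * hy
  | add x w hx hw =>
    simp only [mul_add, add_mul, map_add] at *
    linear_combination hx + hw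
  | smul a x hx =>
    simp only [mul_smul_comm, smul_mul_assoc, map_smul, smul_eq_mul] at *
    linear_combination a * hx

theorem T0_sq (h : TF t d) (g : G) (z : MonoidAlgebra A G) :
    T0 t (MonoidAlgebra.of A G g * MonoidAlgebra.of A G g * z) =
      t g * T0 t (MonoidAlgebra.of A G g * z) - (d g : A) * T0 t z := by
  induction z using MonoidAlgebra.induction_on with
  | of v =>
    simp only [← map_mul, T0_of]
    have e := h.sq 1 g v
    simp only [one_mul] at e
    exact e
  | add y z hy hz =>
    simp only [mul_add, map_add] at *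
    linear_combination hy + hz
  | smul a y hy =>
    simp only [mul_smul_comm, map_smul, smul_eq_mul] at *
    linear_combination a * hy

/-- the kernel of the trace form -/
def con (h : TF t d) : RingCon (MonoidAlgebra A G) where
  r x y := ∀ z, T0 t (x * z) = T0 t (y * z)
  iseqv := ⟨fun _ _ => rfl, fun h z => (h z).symm, fun h k z => (h z).trans (k z)⟩
  add' := fun {w x y z} h1 h2 v => by rw [add_mul, add_mul, map_add, map_add, h1, h2]
  mul' := fun {w x y z} h1 h2 v => by
    rw [mul_assoc, h1, T0_comm h, mul_assoc, h2, ← mul_assoc, T0_comm h, mul_assoc]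

/-- the trace on the quotient -/
def TQ (h : TF t d) : (con h).Quotient →ₗ[A] A where
  toFun := Quotient.lift (T0 t) fun x y k => by
    have := k 1
    rwa [mul_one, mul_one] at this
  map_add' := by
    rintro ⟨x⟩ ⟨y⟩
    exact map_add (T0 t) x y
  map_smul' := by
    rintro a ⟨x⟩
    exact map_smul (T0 t) a x

theorem TQ_mk (h : TF t d) (x : MonoidAlgebra A G) : TQ h ((con h).mkₐ A x) = T0 t x := rfl

/-- the group elements in the quotient -/
def io (h : TF t d) : G →* (con h).Quotient :=
  ((con h).mkₐ A : MonoidAlgebra A G →* (con h).Quotient).comp (MonoidAlgebra.of A G)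

theorem io_eq (h : TF t d) (g : G) : io h g = (con h).mkₐ A (MonoidAlgebra.of A G g) := rfl

theorem TQ_io (h : TF t d) (g : G) : TQ h (io h g) = t g := T0_of t g

theorem TQ_one (h : TF t d) : TQ h 1 = 2 := by
  rw [← map_one (io h), TQ_io, h.one]

theorem TQ_comm (h : TF t d) (x y : (con h).Quotient) : TQ h (x * y) = TQ h (y * x) := by
  obtain ⟨x, rfl⟩ := (con h).mkₐ_surjective (α := A) x
  obtain ⟨y, rfl⟩ := (con h).mkₐ_surjective (α := A) y
  rw [← map_mul, ← map_mul, TQ_mk, TQ_mk, T0_comm h]

theorem TQ_pol (h : TF t d) (x y : (con h).Quotient) :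
    x * y + y * x = TQ h x • y + TQ h y • x +
      (TQ h (x * y) - TQ h x * TQ h y) • (1 : (con h).Quotient) := by
  obtain ⟨x, rfl⟩ := (con h).mkₐ_surjective (α := A) x
  obtain ⟨y, rfl⟩ := (con h).mkₐ_surjective (α := A) y
  rw [← map_mul, ← map_mul, TQ_mk, TQ_mk, TQ_mk, ← map_one ((con h).mkₐ A), ← map_smul,
    ← map_smul, ← map_smul, ← map_add, ← map_add, ← map_add]
  refine (con h).eq.2 fun z => ?_
  simp only [add_mul, smul_mul_assoc, map_add, map_smul, smul_eq_mul, one_mul]
  exact T0_pol h x y z

theorem io_sq (h : TF t d) (g : G) :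
    io h g * io h g = t g • io h g - (d g : A) • (1 : (con h).Quotient) := by
  rw [io_eq, ← map_mul, ← map_one ((con h).mkₐ A), ← map_smul ((con h).mkₐ A),
    ← map_smul ((con h).mkₐ A), ← map_sub]
  refine (con h).eq.2 fun z => ?_
  simp only [sub_mul, smul_mul_assoc, map_sub, map_smul, smul_eq_mul, one_mul]
  exact T0_sq h g z

end grp

end Vale.Agent.P022D.NR
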