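import Mathlib

/-!
P022D, block TAN: generators of a local ring from a bound on the derivations, compatible with
fixed generators of a quotient; evaluation of power series.
-/

noncomputable section

namespace Vale.Agent.P022D.NR

/-- generators of a quotient lift to generators -/
theorem gas {F V : Type*} [Field F] [AddCommGroup V] [Module F V] [Module.Finite F V] {g : ℕ}
    (hg : Module.finrank F V ≤ g) (N : Submodule F V) (w : Fin g → V)
    (hw : Submodule.span F (Set.range w) ⊔ N = ⊤) :
    ∃ v : Fin g → V, (∀ i, v i - w i ∈ N) ∧ Submodule.span F (Set.range v) = ⊤ := by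
  let L1 : (Fin g → F) →ₗ[F] V := Fintype.linearCombination F w
  let L0 : (Fin g → F) →ₗ[F] V ⧸ N := N.mkQ ∘ₗ L1
  have hL0 : LinearMap.range L0 = ⊤ := by
    rw [LinearMap.range_comp, Fintype.range_linearCombination, Submodule.map_mkQ_eq_top, sup_comm,
      hw]
  obtain ⟨C, hC⟩ := (LinearMap.ker L0).exists_isCompl
  have h1 := LinearMap.finrank_range_add_finrank_ker L0
  rw [hL0, finrank_top, Module.finrank_fin_fun] at h1
  have h2 := N.finrank_quotient_add_finrank
  have h3 : Module.finrank F N ≤ Module.finrank F (LinearMap.ker L0) := by omega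
  obtain ⟨h, hh⟩ : ∃ h : LinearMap.ker L0 →ₗ[F] N, Function.Surjective h := by
    obtain ⟨j, hj⟩ := (finrank_le_iff_exists_linearMap (R := F)).1 h3
    obtain ⟨h, hh⟩ := j.exists_leftInverse_of_injective (LinearMap.ker_eq_bot.2 hj)
    exact ⟨h, fun n => ⟨j n, congrArg (fun f : N →ₗ[F] N => f n) hh⟩⟩
  let pK := Submodule.projectionOnto (LinearMap.ker L0) C hC
  let L : (Fin g → F) →ₗ[F] V :=
    L1 - L1 ∘ₗ (LinearMap.ker L0).subtype ∘ₗ pK + N.subtype ∘ₗ h ∘ₗ pK
  have hL : ∀ c, L c = L1 c - L1 (pK c) + h (pK c) := fun _ => rfl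
  have hN : ∀ k : LinearMap.ker L0, L1 k ∈ N := fun k => (Submodule.Quotient.mk_eq_zero N).1 k.2
  have hLN : ∀ c, L c - L1 c ∈ N := fun c => by
    have := N.sub_mem (h (pK c)).2 (hN (pK c))
    rw [hL]
    convert this using 1
    abel
  refine ⟨fun i => L (Pi.single i 1), fun i => ?_, ?_⟩
  · have e : w i = L1 (Pi.single i 1) := by
      simp [L1, Fintype.linearCombination_apply_single]
    rw [e]; exact hLN _
  · have e : LinearMap.range L = Submodule.span F (Set.range fun i => L (Pi.single i 1)) := by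
      rw [LinearMap.range_eq_map, ← (Pi.basisFun F (Fin g)).span_eq, Submodule.map_span,
        ← Set.range_comp]
      congr 2
      ext i
      simp
    rw [← e, LinearMap.range_eq_top]
    intro v
    obtain ⟨c, hc⟩ := LinearMap.range_eq_top.1 hL0 (N.mkQ v)
    have h4 : v - L c ∈ N := by
      have := N.sub_mem ((Submodule.Quotient.eq N).1 hc.symm) (hLN c)
      convert this using 1
      abel
    obtain ⟨k, hk⟩ := hh ⟨_, h4⟩
    refine ⟨c + k, ?_⟩
    rw [map_add, hL k, Submodule.projectionOnto_apply_left, sub_self, zero_add, hk]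
    exact add_sub_cancel _ _

theorem fin_of_rank {F W : Type*} [Field F] [AddCommGroup W] [Module F W] (Z : Submodule F W)
    {g : ℕ} (h : Module.rank F Z ≤ g) : Module.Finite F Z :=
  Module.rank_lt_aleph0_iff.1 (h.trans_lt Cardinal.natCast_lt_aleph0)

/-- a derivation of `R` at the point `π`, zero on `σ O` and on `J` -/
structure Der {O R F : Type*} [CommRing O] [CommRing R] [Field F] (σ : O →+* R) (π : R →+* F)
    (J : Ideal R) (δ : R → F) : Prop where
  add : ∀ a b, δ (a + b) = δ a + δ b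
  mul : ∀ a b, δ (a * b) = π a * δ b + π b * δ a
  cst : ∀ o, δ (σ o) = 0
  kil : ∀ a ∈ J, δ a = 0

/-- **generators from the tangent bound**, corrected inside `K` -/
theorem tan {O R F : Type*} [CommRing O] [CommRing R] [Field F] (σ : O →+* R) (π : R →+* F)
    (hs : Function.Surjective (π.comp σ)) (J K : Ideal R) (hJ : J ≤ RingHom.ker π)
    (h2 : RingHom.ker π ^ 2 ≤ J) (hO : ∀ o, π (σ o) = 0 → σ o ∈ J) {g : ℕ}
    (hD : ∀ Z : Submodule F (R → F), (∀ δ ∈ Z, Der σ π J δ) → Module.rank F Z ≤ g)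
    (hK : K ≤ RingHom.ker π) (w : Fin g → R) (hw : ∀ i, π (w i) = 0)
    (hsp : RingHom.ker π ≤ J ⊔ K ⊔ Ideal.span (Set.range w)) :
    ∃ y : Fin g → R, (∀ i, y i - w i ∈ K) ∧ RingHom.ker π ≤ J ⊔ Ideal.span (Set.range y) := by
  classical
  let mk := Ideal.Quotient.mk J
  let ι : F →+* R ⧸ J := RingHom.liftOfSurjective (π.comp σ) hs ⟨mk.comp σ, fun o ho =>
    Ideal.Quotient.eq_zero_iff_mem.2 (hO o ho)⟩
  have hι : ∀ o, ι (π (σ o)) = mk (σ o) := fun o =>
    RingHom.liftOfSurjective_comp_apply (π.comp σ) hs _ o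
  let _ : Algebra F (R ⧸ J) := ι.toAlgebra
  have sm : ∀ (c : F) (x : R ⧸ J), c • x = ι c * x := fun c x => Algebra.smul_def c x
  let πb : R ⧸ J →+* F := Ideal.Quotient.lift J π fun a ha => hJ ha
  have hπb : ∀ a, πb (mk a) = π a := fun _ => rfl
  have hπι : ∀ c, πb (ι c) = c := fun c => by
    obtain ⟨o, rfl⟩ := hs c
    exact (congrArg πb (hι o)).trans (hπb _)
  let V : Submodule F (R ⧸ J) :=
    { carrier := {x | πb x = 0}
      add_mem' := fun {a b} ha hb => by
        change πb (a + b) = 0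
        rw [map_add, ha, hb, add_zero]
      zero_mem' := map_zero πb
      smul_mem' := fun c x hx => by
        change πb (c • x) = 0
        rw [sm, map_mul, hx, mul_zero] }
  have hV : ∀ x, x ∈ V ↔ πb x = 0 := fun _ => Iff.rfl
  have VV : ∀ x ∈ V, ∀ y ∈ V, x * y = 0 := by
    intro x hx y hy
    obtain ⟨a, rfl⟩ := Ideal.Quotient.mk_surjective x
    obtain ⟨b, rfl⟩ := Ideal.Quotient.mk_surjective y
    rw [← map_mul, Ideal.Quotient.eq_zero_iff_mem]
    exact h2 (by rw [pow_two]; exact Ideal.mul_mem_mul hx hy)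
  let pr : R → V := fun a => ⟨mk a - ι (π a), by rw [hV, map_sub, hπb, hπι, sub_self]⟩
  have pr0 : ∀ a, π a = 0 → (pr a : R ⧸ J) = mk a := fun a ha => by
    change mk a - ι (π a) = _
    rw [ha, map_zero, sub_zero]
  have prm : ∀ a b, pr (a * b) = π a • pr b + π b • pr a := fun a b => by
    apply Subtype.ext
    have := VV _ (pr a).2 _ (pr b).2
    change (mk a - ι (π a)) * (mk b - ι (π b)) = 0 at this
    change mk (a * b) - ι (π (a * b)) = π a • (mk b - ι (π b)) + π b • (mk a - ι (π a))
    rw [sm, sm, map_mul, map_mul, map_mul]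
    linear_combination this
  have pra : ∀ a b, pr (a + b) = pr a + pr b := fun a b => by
    apply Subtype.ext
    change mk (a + b) - ι (π (a + b)) = (mk a - ι (π a)) + (mk b - ι (π b))
    rw [map_add, map_add, map_add]; ring
  have prs : Function.Surjective pr := fun x => by
    obtain ⟨a, ha⟩ := Ideal.Quotient.mk_surjective x.1
    have h0 : π a = 0 := by rw [← hπb]; change πb (Ideal.Quotient.mk J a) = 0; rw [ha]; exact x.2
    exact ⟨a, Subtype.ext ((pr0 a h0).trans ha)⟩
  let Ψ : Module.Dual F V →ₗ[F] (R → F) :=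
    { toFun := fun l a => l (pr a)
      map_add' := fun _ _ => rfl
      map_smul' := fun _ _ => rfl }
  have hΨ : Function.Injective Ψ := fun l l' h => by
    ext x
    obtain ⟨a, rfl⟩ := prs x
    exact congrFun h a
  have hr : Module.rank F (LinearMap.range Ψ) ≤ g := hD _ (by
    rintro _ ⟨l, rfl⟩
    refine ⟨fun a b => ?_, fun a b => ?_, fun o => ?_, fun a ha => ?_⟩
    · change l (pr (a + b)) = l (pr a) + l (pr b)
      rw [pra, map_add]
    · change l (pr (a * b)) = π a * l (pr b) + π b * l (pr a)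
      rw [prm, map_add, map_smul, map_smul, smul_eq_mul, smul_eq_mul]
    · change l (pr (σ o)) = 0
      have : pr (σ o) = 0 := Subtype.ext (sub_eq_zero.2 (hι o).symm)
      rw [this, map_zero]
    · change l (pr a) = 0
      have : pr a = 0 :=
        Subtype.ext ((pr0 a (hJ ha)).trans (Ideal.Quotient.eq_zero_iff_mem.2 ha))
      rw [this, map_zero])
  have hfin : Module.Finite F (LinearMap.range Ψ) := fin_of_rank _ hr
  let j : V →ₗ[F] LinearMap.range Ψ :=
    Ψ.rangeRestrict ∘ₗ (Module.Basis.ofVectorSpace F V).toDual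
  have hj : Function.Injective j := fun x y h =>
    (Module.Basis.ofVectorSpace F V).toDual_injective (hΨ (congrArg Subtype.val h))
  have _ : Module.Finite F V := Module.Finite.of_injective j hj
  have hg : Module.finrank F V ≤ g :=
    (LinearMap.finrank_le_finrank_of_injective hj).trans (Module.finrank_le_of_rank_le hr)
  have prI : ∀ (I : Ideal R) (M : Submodule F V), I ≤ RingHom.ker π → ∀ s : Set R,
      I = Ideal.span s → (∀ a ∈ s, pr a ∈ M) → ∀ a ∈ I, pr a ∈ M := by
    rintro I M hI s rfl hM a ha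
    induction ha using Submodule.span_induction with
    | mem x hx => exact hM x hx
    | zero =>
      have : pr 0 = 0 := Subtype.ext ((pr0 0 (map_zero π)).trans (map_zero mk))
      rw [this]; exact M.zero_mem
    | add x y _ _ hx hy => rw [pra]; exact M.add_mem hx hy
    | smul c x hx0 hx =>
      have h0 : π x = 0 := hI hx0
      rw [smul_eq_mul, prm, h0, zero_smul, add_zero]
      exact M.smul_mem _ hx
  let N : Submodule F V :=
    { carrier := pr '' K
      add_mem' := by
        rintro _ _ ⟨a, ha, rfl⟩ ⟨b, hb, rfl⟩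
        exact ⟨a + b, K.add_mem ha hb, pra a b⟩
      zero_mem' := ⟨0, K.zero_mem, Subtype.ext ((pr0 0 (map_zero π)).trans (map_zero mk))⟩
      smul_mem' := by
        rintro c _ ⟨a, ha, rfl⟩
        obtain ⟨o, rfl⟩ := hs c
        have h0 : π a = 0 := hK ha
        exact ⟨σ o * a, K.mul_mem_left _ ha, by rw [prm, h0, zero_smul, add_zero]; rfl⟩ }
  obtain ⟨v, hv, hvs⟩ := gas hg N (fun i => pr (w i)) (by
    rw [eq_top_iff]
    intro x _
    obtain ⟨a, ha⟩ := Ideal.Quotient.mk_surjective x.1
    have h0 : π a = 0 := by rw [← hπb]; change πb (Ideal.Quotient.mk J a) = 0; rw [ha]; exact x.2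
    have e : x = pr a := Subtype.ext ((pr0 a h0).trans ha).symm
    obtain ⟨b, hb, c, hc, rfl⟩ := Submodule.mem_sup.1 (hsp h0)
    obtain ⟨b1, hb1, b2, hb2, rfl⟩ := Submodule.mem_sup.1 hb
    have e1 : pr b1 = 0 :=
      Subtype.ext ((pr0 b1 (hJ hb1)).trans (Ideal.Quotient.eq_zero_iff_mem.2 hb1))
    rw [e, pra, pra, e1, zero_add]
    refine Submodule.add_mem _ (Submodule.mem_sup_right ⟨b2, hb2, rfl⟩)
      (Submodule.mem_sup_left ?_)
    refine prI _ _ (Ideal.span_le.2 ?_) _ rfl ?_ c hc
    · rintro _ ⟨i, rfl⟩; exact hw i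
    · rintro _ ⟨i, rfl⟩; exact Submodule.subset_span ⟨i, rfl⟩)
  choose n hn hnv using hv
  refine ⟨fun i => w i + n i, fun i => by rw [add_sub_cancel_left]; exact hn i, fun a ha => ?_⟩
  have hy : ∀ i, v i = pr (w i + n i) := fun i => by rw [pra, hnv, add_sub_cancel]
  have h5 : ∀ x : V, x ∈ Submodule.span F (Set.range v) →
      x.1 ∈ (Ideal.span (Set.range fun i => w i + n i)).map mk := by
    intro x hx
    induction hx using Submodule.span_induction with
    | mem x hx =>
      obtain ⟨i, rfl⟩ := hx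
      rw [hy, pr0 _ (by rw [map_add, hw, hK (hn i), add_zero])]
      exact Ideal.mem_map_of_mem _ (Ideal.subset_span ⟨i, rfl⟩)
    | zero => exact Ideal.zero_mem _
    | add x y _ _ hx hy => exact Ideal.add_mem _ hx hy
    | smul c x _ hx =>
      change c • x.1 ∈ _
      rw [sm]; exact Ideal.mul_mem_left _ _ hx
  have h6 := h5 (pr a) (hvs ▸ Submodule.mem_top)
  rw [pr0 a ha, ← Ideal.mem_comap, Ideal.comap_map_of_surjective _ Ideal.Quotient.mk_surjective,
    ← RingHom.ker_eq_comap_bot, Ideal.mk_ker, sup_comm] at h6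
  exact h6

end Vale.Agent.P022D.NR
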